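import Vale.Agent.P168MP.Gen

open MeasureTheory ProbabilityTheory Filter Topology Vale.Agent.P168

namespace Vale.Agent.Results.P168.MezardParisi

theorem result {Ω : Type*} [MeasurableSpace Ω] (P : Measure Ω) [IsProbabilityMeasure P]
    (K : ℕ) (hK : 2 ≤ K) (lam : ℝ) (hlam : 0 < lam) (θ : Ω → Cl K) (h : Ω → ℝ)
    (hθm : Measurable θ) (hhm : Measurable h) (hhi : Integrable h P)
    (hθi : Integrable (fun ω => ⨆ s : Fin K → Bool, |θ ω s|) P) :
    (∀ r, (trialValues P θ h lam r).Nonempty ∧ BddBelow (trialValues P θ h lam r)) ∧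
    BddBelow (Set.range (Phi P θ h lam)) ∧
    (∀ ε : ℝ, 0 < ε → ∀ᶠ N : ℕ in atTop, (⨅ r, Phi P θ h lam r) - ε ≤ pressure P θ h lam N) ∧
    (Even K → ∀ (a b : Ω → ℝ) (f : Fin K → Ω → Bool → ℝ),
      Measurable b → (∀ j, Measurable (f j)) →
      (∀ ω, 0 < a ω) → (∀ ω, |b ω| < 1) → (∀ j ω s, |f j ω s| ≤ 1) →
      (∀ ω s, Real.exp (θ ω s) = a ω * (1 + b ω * ∏ j, f j ω (s j))) →
      iIndepFun f P → (∀ j j', IdentDistrib (f j) (f j') P P) →
      IndepFun b (fun ω j => f j ω) P →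
      (∀ n : ℕ, 1 ≤ n → 0 ≤ ∫ ω, (-b ω) ^ n ∂P) →
      Tendsto (pressure P θ h lam) atTop (𝓝 (⨅ r, Phi P θ h lam r))) := by
  have hK1 : 1 ≤ K := by omega
  have hθi' : Integrable θ P := by
    refine Integrable.mono' hθi hθm.aestronglyMeasurable (Eventually.of_forall fun ω => ?_)
    refine (pi_norm_le_iff_of_nonneg ?_).2 fun s => ?_
    · exact le_ciSup_of_le (Finite.bddAbove_range _) (fun _ => true) (abs_nonneg _)
    · exact le_ciSup (f := fun s : Fin K → Bool => |θ ω s|) (Finite.bddAbove_range _) s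
  obtain ⟨c, hc⟩ := trial_bdd hK1 hlam.le hθm hhm hθi' hhi
  have ne := trial_nonempty (P := P) θ h lam
  have bdd : ∀ r, BddBelow (trialValues P θ h lam r) := fun r => ⟨c, hc r⟩
  have bddPhi : BddBelow (Set.range (Phi P θ h lam)) :=
    ⟨c, by rintro _ ⟨r, rfl⟩; exact le_csInf (ne r) (hc r)⟩
  have low : ∀ ε : ℝ, 0 < ε →
      ∀ᶠ N : ℕ in atTop, (⨅ r, Phi P θ h lam r) - ε ≤ pressure P θ h lam N := fun ε hε =>
    lower_gen hK1 hlam.le hθm hhm hθi' hhi
      (fun r t ht => (ciInf_le bddPhi r).trans (csInf_le (bdd r) ht)) hε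
  refine ⟨fun r => ⟨ne r, bdd r⟩, bddPhi, low, ?_⟩
  intro hKe a b f hbm hfm ha hb hf hrep hind hid hbf hpos
  rw [Metric.tendsto_atTop']
  intro ε hε
  obtain ⟨N₀, hN₀⟩ := eventually_atTop.1 (low (ε / 2) (by positivity))
  refine ⟨N₀, fun N hN => ?_⟩
  have h1 := hN₀ N hN.le
  have h2 : pressure P θ h lam N ≤ ⨅ r, Phi P θ h lam r := le_ciInf fun r =>
    le_csInf (ne r) fun t ht => upper_gen hKe hK1 hlam.le hθm hbm hfm hhm ha hb hf hrep hind hid
      hbf hpos hhi hθi' (by omega) ht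
  rw [Real.dist_eq, abs_lt]
  constructor <;> linarith

end Vale.Agent.Results.P168.MezardParisi
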